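import Vale.Agent.P038.H833.Rank

/-!
# P038 (H833): the shift inequality for two families of sets
-/

namespace Vale.Agent.P038.H833

open Finset

section

variable {V : Type*} [Fintype V]

open Classical in
/-- Closed out-neighbourhood of a set with respect to a relation. -/
noncomputable def Nb (r : V → V → Prop) (S : Finset V) : Finset V :=
  Finset.univ.filter fun y => ∃ x ∈ S, r x y

open Classical in
/-- Intersection of a family over the in-neighbours. -/
noncomputable def Icap (r : V → V → Prop) (B : V → Finset V) (z : V) : Finset V :=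
  Finset.univ.filter fun b => ∀ a, r a z → b ∈ B a

theorem mem_Nb {r : V → V → Prop} {S : Finset V} {y : V} : y ∈ Nb r S ↔ ∃ x ∈ S, r x y := by
  classical
  simp [Nb]

theorem mem_Icap {r : V → V → Prop} {B : V → Finset V} {z b : V} :
    b ∈ Icap r B z ↔ ∀ a, r a z → b ∈ B a := by
  classical
  simp [Icap]

variable [DecidableEq V]

theorem hall_gen (r : V → V → Prop) (P : V → Prop) (R : Finset V)
    (RH : ∀ S : Finset V, (∀ b ∈ S, P b) → S.card ≤ (Nb r S \ R).card) :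
    ∃ τ : V → V, (∀ b, P b → r b (τ b) ∧ τ b ∉ R) ∧
      ∀ b b', P b → P b' → τ b = τ b' → b = b' := by
  classical
  have h := (Finset.all_card_le_biUnion_card_iff_exists_injective
    (fun b : {b // P b} => Nb r {b.1} \ R)).1 ?_
  · obtain ⟨f, hf, hf'⟩ := h
    refine ⟨fun b => if h : P b then f ⟨b, h⟩ else b, ?_, ?_⟩
    · intro b hb
      simp only [dif_pos hb]
      have h1 := Finset.mem_sdiff.1 (hf' ⟨b, hb⟩)
      obtain ⟨x, hx, hx'⟩ := mem_Nb.1 h1.1
      rw [Finset.mem_singleton] at hx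
      rw [hx] at hx'
      exact ⟨hx', h1.2⟩
    · intro b b' hb hb' hbb
      simp only [dif_pos hb, dif_pos hb'] at hbb
      exact congrArg Subtype.val (hf hbb)
  · intro s
    have h1 := RH (s.map (Function.Embedding.subtype _)) (by
      intro b hb
      obtain ⟨c, _, rfl⟩ := Finset.mem_map.1 hb
      exact c.2)
    rw [Finset.card_map] at h1
    refine h1.trans (Finset.card_le_card ?_)
    intro y hy
    obtain ⟨hy1, hy2⟩ := Finset.mem_sdiff.1 hy
    obtain ⟨x, hx, hxy⟩ := mem_Nb.1 hy1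
    obtain ⟨c, hc, rfl⟩ := Finset.mem_map.1 hx
    rw [Finset.mem_biUnion]
    exact ⟨c, hc, Finset.mem_sdiff.2 ⟨mem_Nb.2 ⟨c.1, Finset.mem_singleton_self _, hxy⟩, hy2⟩⟩

theorem side (r : V → V → Prop) (B C : V → Finset V)
    (RH : ∀ a (S : Finset V), (∀ b ∈ S, b ∉ B a ∧ a ∉ C b) → S.card ≤ (Nb r S \ Nb r (B a)).card) :
    ∃ t : V → V → V,
      (∀ z b, (b ∉ Icap r B z ∧ z ∉ Nb r (C b)) →
        r b (t z b) ∧ (t z b ∉ Nb r (Icap r B z) ∧ z ∉ Nb r (Icap r C (t z b)))) ∧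
      ∀ z b b', (b ∉ Icap r B z ∧ z ∉ Nb r (C b)) → (b' ∉ Icap r B z ∧ z ∉ Nb r (C b')) →
        t z b = t z b' → b = b' := by
  classical
  have h1 : ∀ a, ∃ τ : V → V, (∀ b, (b ∉ B a ∧ a ∉ C b) → r b (τ b) ∧ τ b ∉ Nb r (B a)) ∧
      ∀ b b', (b ∉ B a ∧ a ∉ C b) → (b' ∉ B a ∧ a ∉ C b') → τ b = τ b' → b = b' :=
    fun a => hall_gen r (fun b => b ∉ B a ∧ a ∉ C b) (Nb r (B a)) (RH a)
  choose τ hτ hτ' using h1
  let e := Fintype.equivFin V
  have h2 : ∀ z b, (b ∉ Icap r B z ∧ z ∉ Nb r (C b)) → ∃ a, (r a z ∧ b ∉ B a) ∧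
      ∀ a2, r a2 z → b ∉ B a2 → e a ≤ e a2 := by
    intro z b hzb
    have h3 : (Finset.univ.filter fun a => r a z ∧ b ∉ B a).Nonempty := by
      by_contra hcon
      apply hzb.1
      rw [mem_Icap]
      intro a ha
      by_contra hb
      exact hcon ⟨a, by simp [ha, hb]⟩
    obtain ⟨a, ha, hmin⟩ := Finset.exists_min_image _ e h3
    rw [Finset.mem_filter] at ha
    exact ⟨a, ha.2, fun a2 h4 h5 => hmin a2 (by simp [h4, h5])⟩
  choose! A hA hA' using h2
  have hG : ∀ z b, (b ∉ Icap r B z ∧ z ∉ Nb r (C b)) → b ∉ B (A z b) ∧ A z b ∉ C b := by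
    intro z b hzb
    refine ⟨(hA z b hzb).2, fun h => hzb.2 (mem_Nb.2 ⟨_, h, (hA z b hzb).1⟩)⟩
  refine ⟨fun z b => τ (A z b) b, ?_, ?_⟩
  · intro z b hzb
    obtain ⟨h3, h4⟩ := hτ (A z b) b (hG z b hzb)
    refine ⟨h3, ?_, ?_⟩
    · intro h5
      obtain ⟨x, hx, hxy⟩ := mem_Nb.1 h5
      exact h4 (mem_Nb.2 ⟨x, mem_Icap.1 hx _ (hA z b hzb).1, hxy⟩)
    · intro h5
      obtain ⟨x, hx, hxz⟩ := mem_Nb.1 h5
      exact hzb.2 (mem_Nb.2 ⟨x, mem_Icap.1 hx _ h3, hxz⟩)
  · intro z b b' hb hb' heq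
    have key : ∀ b1 b2, (b1 ∉ Icap r B z ∧ z ∉ Nb r (C b1)) → (b2 ∉ Icap r B z ∧ z ∉ Nb r (C b2)) →
        τ (A z b1) b1 = τ (A z b2) b2 → ¬ e (A z b1) < e (A z b2) := by
      intro b1 b2 h1 h2 h12 hlt
      have h3 : b2 ∈ B (A z b1) := by
        by_contra h4
        exact absurd (hA' z b2 h2 _ (hA z b1 h1).1 h4) (not_le.2 hlt)
      have h5 := hτ (A z b2) b2 (hG z b2 h2)
      have h6 := hτ (A z b1) b1 (hG z b1 h1)
      apply h6.2
      rw [h12]
      exact mem_Nb.2 ⟨b2, h3, h5.1⟩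
    have h7 := key b b' hb hb' heq
    have h8 := key b' b hb' hb heq.symm
    have h9 : A z b = A z b' := e.injective (le_antisymm (not_lt.1 h8) (not_lt.1 h7))
    have h10 := hG z b' hb'
    have heq' : τ (A z b) b = τ (A z b') b' := heq
    rw [← h9] at h10 heq'
    exact hτ' _ b b' (hG z b hb) h10 heq'

theorem count_aux (L M : V → V → Prop) [DecidableRel L] [DecidableRel M]
    (hd : ∀ a b, L a b → M a b → a = b) (h1 : ∀ a, L a a) (h2 : ∀ a, M a a) :
    Fintype.card {p : V × V // ¬ L p.1 p.2 ∧ ¬ M p.1 p.2} + ∑ a, (univ.filter fun b => L a b).card +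
      ∑ b, (univ.filter fun a => M a b).card =
      Fintype.card V * Fintype.card V + Fintype.card V := by
  classical
  have e1 : ∑ a, (univ.filter fun b => L a b).card =
      (univ.filter fun p : V × V => L p.1 p.2).card := by
    rw [Finset.card_filter, Fintype.sum_prod_type]
    exact Finset.sum_congr rfl fun a _ => Finset.card_filter _ _
  have e2 : ∑ b, (univ.filter fun a => M a b).card =
      (univ.filter fun p : V × V => M p.1 p.2).card := by
    rw [Finset.card_filter, Fintype.sum_prod_type_right]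
    exact Finset.sum_congr rfl fun a _ => Finset.card_filter _ _
  have e3 : Fintype.card {p : V × V // ¬ L p.1 p.2 ∧ ¬ M p.1 p.2} =
      (univ.filter fun p : V × V => ¬ L p.1 p.2 ∧ ¬ M p.1 p.2).card := by
    rw [Fintype.card_subtype]
  have e4 : (univ.filter fun p : V × V => ¬ L p.1 p.2 ∧ ¬ M p.1 p.2) =
      ((univ.filter fun p : V × V => L p.1 p.2) ∪ (univ.filter fun p : V × V => M p.1 p.2))ᶜ := by
    ext p
    simp [not_or]
  have e5 : ((univ.filter fun p : V × V => L p.1 p.2) ∩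
      (univ.filter fun p : V × V => M p.1 p.2)).card = Fintype.card V := by
    have : ((univ.filter fun p : V × V => L p.1 p.2) ∩
      (univ.filter fun p : V × V => M p.1 p.2)) = univ.image fun a : V => (a, a) := by
      ext ⟨a, b⟩
      simp only [Finset.mem_inter, Finset.mem_filter, Finset.mem_univ, true_and, Finset.mem_image,
        Prod.mk.injEq]
      constructor
      · rintro ⟨h3, h4⟩
        exact ⟨a, rfl, hd a b h3 h4⟩
      · rintro ⟨c, rfl, rfl⟩
        exact ⟨h1 _, h2 _⟩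
    rw [this, Finset.card_image_of_injective _ fun a b h => (Prod.ext_iff.1 h).1]
    rfl
  have e6 := Finset.card_union_add_card_inter (univ.filter fun p : V × V => L p.1 p.2)
    (univ.filter fun p : V × V => M p.1 p.2)
  have e7 := Finset.card_add_card_compl
    ((univ.filter fun p : V × V => L p.1 p.2) ∪ (univ.filter fun p : V × V => M p.1 p.2))
  rw [Fintype.card_prod] at e7
  rw [e3, e4, e1, e2]
  omega

theorem card_sdiff_sum (r : V → V → Prop) (hr : ∀ a, r a a) (X : V → Finset V) :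
    ∑ a, (Nb r (X a) \ X a).card + ∑ a, (X a).card = ∑ a, (Nb r (X a)).card := by
  rw [← Finset.sum_add_distrib]
  refine Finset.sum_congr rfl fun a _ => ?_
  exact Finset.card_sdiff_add_card_eq_card fun x hx => mem_Nb.2 ⟨x, hx, hr x⟩

theorem club (r : V → V → Prop) (hr : ∀ a, r a a)
    (B C : V → Finset V) (hB : ∀ a y, r a y → y ∈ B a) (hC : ∀ a y, r a y → y ∈ C a)
    (hBC : ∀ a b, b ∈ B a → a ∈ C b → a = b)
    (RH : ∀ a (S : Finset V), (∀ b ∈ S, b ∉ B a ∧ a ∉ C b) → S.card ≤ (Nb r S \ Nb r (B a)).card)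
    (CH : ∀ b (T : Finset V), (∀ a ∈ T, b ∉ B a ∧ a ∉ C b) → T.card ≤ (Nb r T \ Nb r (C b)).card) :
    ∑ z, (Nb r (Icap r B z) \ Icap r B z).card + ∑ z, (Nb r (Icap r C z) \ Icap r C z).card ≤
    ∑ a, (Nb r (B a) \ B a).card + ∑ a, (Nb r (C a) \ C a).card := by
  classical
  obtain ⟨t, ht, htinj⟩ := side r B C RH
  obtain ⟨u, hu, huinj⟩ := side r C B (fun b T hT => CH b T fun a ha => ⟨(hT a ha).2, (hT a ha).1⟩)
  have key := gap_ineq r (fun a b => ¬ b ∈ B a ∧ ¬ a ∈ C b)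
    (fun z b => ¬ b ∈ Icap r B z ∧ ¬ z ∈ Nb r (C b))
    (fun a y => ¬ y ∈ Nb r (B a) ∧ ¬ a ∈ Icap r C y)
    (fun z y => ¬ y ∈ Nb r (Icap r B z) ∧ ¬ z ∈ Nb r (Icap r C y))
    (by
      intro z b a y h1 h2 haz hby
      refine ⟨⟨fun h => h2.1 (mem_Nb.2 ⟨b, h, hby⟩), fun h => h1.2 (mem_Nb.2 ⟨a, h, haz⟩)⟩, ?_, ?_⟩
      · intro h
        obtain ⟨x, hx, hxy⟩ := mem_Nb.1 h
        exact h2.1 (mem_Nb.2 ⟨x, mem_Icap.1 hx a haz, hxy⟩)
      · intro h
        obtain ⟨x, hx, hxz⟩ := mem_Nb.1 h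
        exact h1.2 (mem_Nb.2 ⟨x, mem_Icap.1 hx b hby, hxz⟩))
    t ht htinj (fun a y => u y a)
    (by
      intro a y h
      obtain ⟨h1, h2, h3⟩ := hu y a ⟨h.2, h.1⟩
      exact ⟨h1, h3, h2⟩)
    (by
      intro y a a' h h' heq
      exact huinj y a a' ⟨h.2, h.1⟩ ⟨h'.2, h'.1⟩ heq)
  have dX : ∀ a, a ∈ Icap r B a := fun a => mem_Icap.2 fun a' h => hB a' a h
  have dY : ∀ a, a ∈ Icap r C a := fun a => mem_Icap.2 fun a' h => hC a' a h
  have self : ∀ {S : Finset V} {x : V}, x ∈ S → x ∈ Nb r S := fun h => mem_Nb.2 ⟨_, h, hr _⟩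
  have c1 := count_aux (fun a b => b ∈ B a) (fun a b => a ∈ C b) hBC
    (fun a => hB a a (hr a)) (fun a => hC a a (hr a))
  have c2 := count_aux (fun z b => b ∈ Icap r B z) (fun z b => z ∈ Nb r (C b))
    (by
      intro z b h1 h2
      obtain ⟨a, ha, haz⟩ := mem_Nb.1 h2
      have h3 : a = b := hBC a b (mem_Icap.1 h1 a haz) ha
      rw [h3] at haz
      exact hBC z b (mem_Icap.1 h1 z (hr z)) (hC b z haz))
    dX (fun a => self (hC a a (hr a)))
  have c3 := count_aux (fun a y => y ∈ Nb r (B a)) (fun a y => a ∈ Icap r C y)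
    (by
      intro a y h1 h2
      obtain ⟨b, hb, hby⟩ := mem_Nb.1 h1
      have h3 : a = b := hBC a b hb (mem_Icap.1 h2 b hby)
      rw [← h3] at hby
      exact hBC a y (hB a y hby) (mem_Icap.1 h2 y (hr y)))
    (fun a => self (hB a a (hr a))) dY
  have c4 := count_aux (fun z y => y ∈ Nb r (Icap r B z)) (fun z y => z ∈ Nb r (Icap r C y))
    (by
      intro z y h1 h2
      obtain ⟨x, hx, hxy⟩ := mem_Nb.1 h1
      obtain ⟨w, hw, hwz⟩ := mem_Nb.1 h2
      have h3 : w = x := hBC w x (mem_Icap.1 hx w hwz) (mem_Icap.1 hw x hxy)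
      subst h3
      have h4 : z = w := hBC z w (mem_Icap.1 hx z (hr z)) (hC w z hwz)
      have h5 : w = y := hBC w y (hB w y hxy) (mem_Icap.1 hw y (hr y))
      exact h4.trans h5)
    (fun a => self (dX a)) (fun a => self (dY a))
  have s1 := card_sdiff_sum r hr B
  have s2 := card_sdiff_sum r hr C
  have s3 := card_sdiff_sum r hr (Icap r B)
  have s4 := card_sdiff_sum r hr (Icap r C)
  simp only [Finset.filter_mem_eq_inter, Finset.univ_inter] at c1 c2 c3 c4
  omega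

end

end Vale.Agent.P038.H833
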