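import Mathlib

/-!
# P038 (H833): a commutative square of generic matrices
-/

namespace Vale.Agent.P038.H833

open Finset

theorem square_dim {K A B C E : Type*} [Field K]
    [AddCommGroup A] [Module K A] [FiniteDimensional K A]
    [AddCommGroup B] [Module K B] [FiniteDimensional K B]
    [AddCommGroup C] [Module K C] [FiniteDimensional K C]
    [AddCommGroup E] [Module K E] [FiniteDimensional K E]
    (i' : A →ₗ[K] C) (s : A →ₗ[K] B) (i : B →ₗ[K] E) (s' : C →ₗ[K] E)
    (hi' : Function.Injective i') (hs' : Function.Surjective s') (hc : s' ∘ₗ i' = i ∘ₗ s) :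
    Module.finrank K A + Module.finrank K E ≤ Module.finrank K C + Module.finrank K B := by
  have h1 := LinearMap.finrank_range_add_finrank_ker s
  have h2 := LinearMap.finrank_range_add_finrank_ker s'
  have h3 : Module.finrank K (LinearMap.range s') = Module.finrank K E := by
    rw [LinearMap.range_eq_top.2 hs', finrank_top]
  have h4 : Module.finrank K (LinearMap.range s) ≤ Module.finrank K B := Submodule.finrank_le _
  have hmem : ∀ x : LinearMap.ker s, i' x.1 ∈ LinearMap.ker s' := by
    intro x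
    have h : (s' ∘ₗ i') x.1 = (i ∘ₗ s) x.1 := by rw [hc]
    simp only [LinearMap.comp_apply] at h
    rw [LinearMap.mem_ker, h, LinearMap.mem_ker.1 x.2, map_zero]
  have h5 : Module.finrank K (LinearMap.ker s) ≤ Module.finrank K (LinearMap.ker s') := by
    let j : LinearMap.ker s →ₗ[K] LinearMap.ker s' :=
      (i'.domRestrict (LinearMap.ker s)).codRestrict (LinearMap.ker s') hmem
    refine LinearMap.finrank_le_finrank_of_injective (f := j) ?_
    intro x y hxy
    have h := congrArg Subtype.val hxy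
    exact Subtype.ext (hi' h)
  omega

/-- The field of rational functions in the entries of a generic matrix. -/
abbrev KK (V : Type*) := FractionRing (MvPolynomial (V × V) ℚ)

/-- The generic entries. -/
noncomputable def xx {V : Type*} (b y : V) : KK V :=
  algebraMap (MvPolynomial (V × V) ℚ) (KK V) (MvPolynomial.X (b, y))

/-- A sum over a subtype as a sum over the whole type. -/
theorem sum_sub {ι M : Type*} [Fintype ι] [AddCommMonoid M] (P : ι → Prop) [DecidablePred P]
    (g : ι → M) : ∑ q : {p // P p}, g q.1 = ∑ p, if P p then g p else 0 := by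
  rw [← Finset.sum_filter]
  exact (Finset.sum_subtype (Finset.univ.filter P) (by simp) g).symm

theorem fiber_inj {V : Type*} [Fintype V] [DecidableEq V] (r : V → V → Prop) [DecidableRel r]
    (P : V → Prop) [DecidablePred P] (t : V → V) (ht : ∀ b, P b → r b (t b))
    (hinj : ∀ b b', P b → P b' → t b = t b' → b = b')
    (f : V → KK V)
    (hf : ∀ b, P b → ∑ b', (if P b' ∧ r b' (t b) then xx b' (t b) * f b' else 0) = 0) :
    ∀ b, P b → f b = 0 := by
  classical
  let M : Matrix {b // P b} {b // P b} (MvPolynomial (V × V) ℚ) :=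
    Matrix.of fun b b' => if r b'.1 (t b.1) then MvPolynomial.X (b'.1, t b.1) else 0
  have hM : ∀ b b', M b b' = if r b'.1 (t b.1) then MvPolynomial.X (b'.1, t b.1) else 0 :=
    fun _ _ => rfl
  let φ : MvPolynomial (V × V) ℚ →+* ℚ := MvPolynomial.eval fun p => if t p.1 = p.2 then 1 else 0
  have hφX : ∀ p, φ (MvPolynomial.X p) = if t p.1 = p.2 then 1 else 0 := by
    intro p
    exact MvPolynomial.eval_X _
  have hφ : φ.mapMatrix M = 1 := by
    ext b b'
    rw [RingHom.mapMatrix_apply, Matrix.map_apply, Matrix.one_apply, hM]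
    by_cases hb : b = b'
    · subst hb
      rw [if_pos (ht b.1 b.2), if_pos rfl, hφX, if_pos rfl]
    · rw [if_neg hb]
      split_ifs with h
      · rw [hφX, if_neg]
        intro h2
        exact hb (Subtype.ext (hinj _ _ b.2 b'.2 h2.symm))
      · exact map_zero _
  have hdet : M.det ≠ 0 := by
    intro h0
    have h1 : φ M.det = 0 := by rw [h0, map_zero]
    rw [RingHom.map_det, hφ, Matrix.det_one] at h1
    exact one_ne_zero h1
  let ι : MvPolynomial (V × V) ℚ →+* KK V := algebraMap (MvPolynomial (V × V) ℚ) (KK V)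
  have hι : Function.Injective ι := IsFractionRing.injective (MvPolynomial (V × V) ℚ) (KK V)
  have hdet' : (ι.mapMatrix M).det ≠ 0 := by
    rw [← RingHom.map_det]
    intro h0
    exact hdet (hι (by rw [h0, map_zero]))
  have hz : (ι.mapMatrix M).mulVec (fun b => f b.1) = 0 := by
    funext b
    have h := hf b.1 b.2
    have h2 : ((ι.mapMatrix M).mulVec (fun b => f b.1)) b =
        ∑ b' : {b // P b}, (fun b' : V => if r b' (t b.1) then xx b' (t b.1) * f b' else 0) b'.1 := by
      change ∑ b' : {b // P b}, (ι.mapMatrix M) b b' * f b'.1 = _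
      refine Finset.sum_congr rfl fun b' _ => ?_
      rw [RingHom.mapMatrix_apply, Matrix.map_apply, hM]
      dsimp only
      split_ifs
      · rfl
      · rw [map_zero, zero_mul]
    refine h2.trans ((sum_sub P
      (fun b' : V => if r b' (t b.1) then xx b' (t b.1) * f b' else 0)).trans ?_)
    rw [Pi.zero_apply]
    refine Eq.trans ?_ h
    refine Finset.sum_congr rfl fun b' _ => ?_
    by_cases h3 : P b' <;> simp [h3]
  have h4 := Matrix.eq_zero_of_mulVec_eq_zero hdet' hz
  intro b hb
  exact congrFun h4 ⟨b, hb⟩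

/-- The rank inequality. -/
theorem gap_ineq {V : Type*} [Fintype V] [DecidableEq V] (r : V → V → Prop) [DecidableRel r]
    (G GA GE H : V → V → Prop) [DecidableRel G] [DecidableRel GA] [DecidableRel GE]
    [DecidableRel H]
    (hcomm : ∀ z b a y, GA z b → GE a y → r a z → r b y → G a b ∧ H z y)
    (t : V → V → V) (ht : ∀ z b, GA z b → r b (t z b) ∧ H z (t z b))
    (htinj : ∀ z b b', GA z b → GA z b' → t z b = t z b' → b = b')
    (u : V → V → V) (hu : ∀ a y, GE a y → r a (u a y) ∧ H (u a y) y)
    (huinj : ∀ y a a', GE a y → GE a' y → u a y = u a' y → a = a') :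
    Fintype.card {p : V × V // GA p.1 p.2} + Fintype.card {p : V × V // GE p.1 p.2} ≤
      Fintype.card {p : V × V // H p.1 p.2} + Fintype.card {p : V × V // G p.1 p.2} := by
  classical
  let M1 : Matrix {p : V × V // H p.1 p.2} {p : V × V // GA p.1 p.2} (KK V) :=
    Matrix.of fun p q => if p.1.1 = q.1.1 ∧ r q.1.2 p.1.2 then xx q.1.2 p.1.2 else 0
  let M2 : Matrix {p : V × V // G p.1 p.2} {p : V × V // GA p.1 p.2} (KK V) :=
    Matrix.of fun p q => if p.1.2 = q.1.2 ∧ r p.1.1 q.1.1 then xx p.1.1 q.1.1 else 0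
  let M3 : Matrix {p : V × V // GE p.1 p.2} {p : V × V // G p.1 p.2} (KK V) :=
    Matrix.of fun p q => if p.1.1 = q.1.1 ∧ r q.1.2 p.1.2 then xx q.1.2 p.1.2 else 0
  let M4 : Matrix {p : V × V // GE p.1 p.2} {p : V × V // H p.1 p.2} (KK V) :=
    Matrix.of fun p q => if p.1.2 = q.1.2 ∧ r p.1.1 q.1.1 then xx p.1.1 q.1.1 else 0
  have e1 : ∀ p q, M1 p q = if p.1.1 = q.1.1 ∧ r q.1.2 p.1.2 then xx q.1.2 p.1.2 else 0 :=
    fun _ _ => rfl
  have e2 : ∀ p q, M2 p q = if p.1.2 = q.1.2 ∧ r p.1.1 q.1.1 then xx p.1.1 q.1.1 else 0 :=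
    fun _ _ => rfl
  have e3 : ∀ p q, M3 p q = if p.1.1 = q.1.1 ∧ r q.1.2 p.1.2 then xx q.1.2 p.1.2 else 0 :=
    fun _ _ => rfl
  have e4 : ∀ p q, M4 p q = if p.1.2 = q.1.2 ∧ r p.1.1 q.1.1 then xx p.1.1 q.1.1 else 0 :=
    fun _ _ => rfl
  -- commutation
  have hmul : M4 * M1 = M3 * M2 := by
    ext ⟨⟨a, y⟩, hay⟩ ⟨⟨z, b⟩, hzb⟩
    rw [Matrix.mul_apply, Matrix.mul_apply]
    simp only [e1, e2, e3, e4]
    by_cases hr : r a z ∧ r b y
    · obtain ⟨hG, hH⟩ := hcomm z b a y hzb hay hr.1 hr.2
      rw [Finset.sum_eq_single (⟨(z, y), hH⟩ : {p : V × V // H p.1 p.2}),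
        Finset.sum_eq_single (⟨(a, b), hG⟩ : {p : V × V // G p.1 p.2})]
      · simp [hr.1, hr.2, mul_comm]
      · rintro ⟨⟨a', b'⟩, hG'⟩ _ hne
        by_cases h1 : a = a' ∧ r b' y
        · by_cases h2 : b' = b ∧ r a' z
          · exact absurd (Subtype.ext (Prod.ext h1.1.symm h2.1)) hne
          · rw [if_neg h2, mul_zero]
        · rw [if_neg h1, zero_mul]
      · intro h
        exact absurd (Finset.mem_univ _) h
      · rintro ⟨⟨z', y'⟩, hH'⟩ _ hne
        by_cases h1 : y = y' ∧ r a z'
        · by_cases h2 : z' = z ∧ r b y'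
          · exact absurd (Subtype.ext (Prod.ext h2.1 h1.1.symm)) hne
          · rw [if_neg h2, mul_zero]
        · rw [if_neg h1, zero_mul]
      · intro h
        exact absurd (Finset.mem_univ _) h
    · rw [Finset.sum_eq_zero, Finset.sum_eq_zero]
      · rintro ⟨⟨a', b'⟩, hG'⟩ _
        by_cases h1 : a = a' ∧ r b' y
        · by_cases h2 : b' = b ∧ r a' z
          · refine absurd ⟨?_, ?_⟩ hr
            · rw [h1.1]; exact h2.2
            · rw [← h2.1]; exact h1.2
          · rw [if_neg h2, mul_zero]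
        · rw [if_neg h1, zero_mul]
      · rintro ⟨⟨z', y'⟩, hH'⟩ _
        by_cases h1 : y = y' ∧ r a z'
        · by_cases h2 : z' = z ∧ r b y'
          · refine absurd ⟨?_, ?_⟩ hr
            · rw [← h2.1]; exact h1.2
            · rw [h1.1]; exact h2.2
          · rw [if_neg h2, mul_zero]
        · rw [if_neg h1, zero_mul]
  -- injectivity of `M1`
  have hinj1 : Function.Injective M1.mulVecLin := by
    rw [injective_iff_map_eq_zero]
    intro f hf
    funext ⟨⟨z, b⟩, hzb⟩
    have key := fiber_inj r (fun b => GA z b) (t z) (fun b hb => (ht z b hb).1) (htinj z)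
      (fun b => if h : GA z b then f ⟨(z, b), h⟩ else 0) ?_ b hzb
    · rw [dif_pos hzb] at key
      exact key
    · intro b0 hb0
      have h1 := congrFun hf ⟨(z, t z b0), (ht z b0 hb0).2⟩
      have h2 : (M1.mulVecLin f) ⟨(z, t z b0), (ht z b0 hb0).2⟩ =
          ∑ q : {p : V × V // GA p.1 p.2}, (if z = q.1.1 ∧ r q.1.2 (t z b0) then
            xx q.1.2 (t z b0) else 0) * f q := rfl
      rw [h2, Pi.zero_apply] at h1
      have h3 : ∀ q : {p : V × V // GA p.1 p.2}, (if z = q.1.1 ∧ r q.1.2 (t z b0) then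
            xx q.1.2 (t z b0) else 0) * f q =
          (fun p : V × V => (if z = p.1 ∧ r p.2 (t z b0) then xx p.2 (t z b0) else 0) *
            (if h : GA p.1 p.2 then f ⟨p, h⟩ else 0)) q.1 := by
        intro q
        dsimp only
        rw [dif_pos q.2]
      have h7 := (Finset.sum_congr rfl fun q _ => h3 q).symm.trans h1
      have h8 := (sum_sub (fun p : V × V => GA p.1 p.2)
        (fun p : V × V => (if z = p.1 ∧ r p.2 (t z b0) then xx p.2 (t z b0) else 0) *
            (if h : GA p.1 p.2 then f ⟨p, h⟩ else 0))).symm.trans h7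
      rw [Fintype.sum_prod_type] at h8
      refine Eq.trans (Eq.symm ((Finset.sum_eq_single z ?_ ?_).trans ?_)) h8
      · intro z' _ hne
        refine Finset.sum_eq_zero fun b' _ => ?_
        have h6 : ¬ (z = z' ∧ r b' (t z b0)) := fun h => hne h.1.symm
        simp [h6]
      · intro h
        exact absurd (Finset.mem_univ _) h
      · refine Finset.sum_congr rfl fun b' _ => ?_
        by_cases h4 : GA z b' <;> by_cases h5 : r b' (t z b0) <;> simp [h4, h5]
  -- injectivity of the transpose of `M4`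
  have hinj4 : Function.Injective M4.transpose.mulVecLin := by
    rw [injective_iff_map_eq_zero]
    intro f hf
    funext ⟨⟨a, y⟩, hay⟩
    have key := fiber_inj r (fun a => GE a y) (fun a => u a y) (fun a ha => (hu a y ha).1)
      (huinj y) (fun a => if h : GE a y then f ⟨(a, y), h⟩ else 0) ?_ a hay
    · rw [dif_pos hay] at key
      exact key
    · intro a0 ha0
      have h1 := congrFun hf ⟨(u a0 y, y), (hu a0 y ha0).2⟩
      have h2 : (M4.transpose.mulVecLin f) ⟨(u a0 y, y), (hu a0 y ha0).2⟩ =
          ∑ q : {p : V × V // GE p.1 p.2}, (if q.1.2 = y ∧ r q.1.1 (u a0 y) then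
            xx q.1.1 (u a0 y) else 0) * f q := rfl
      rw [h2, Pi.zero_apply] at h1
      have h3 : ∀ q : {p : V × V // GE p.1 p.2}, (if q.1.2 = y ∧ r q.1.1 (u a0 y) then
            xx q.1.1 (u a0 y) else 0) * f q =
          (fun p : V × V => (if p.2 = y ∧ r p.1 (u a0 y) then xx p.1 (u a0 y) else 0) *
            (if h : GE p.1 p.2 then f ⟨p, h⟩ else 0)) q.1 := by
        intro q
        dsimp only
        rw [dif_pos q.2]
      have h7 := (Finset.sum_congr rfl fun q _ => h3 q).symm.trans h1
      have h8 := (sum_sub (fun p : V × V => GE p.1 p.2)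
        (fun p : V × V => (if p.2 = y ∧ r p.1 (u a0 y) then xx p.1 (u a0 y) else 0) *
            (if h : GE p.1 p.2 then f ⟨p, h⟩ else 0))).symm.trans h7
      rw [Fintype.sum_prod_type_right] at h8
      refine Eq.trans (Eq.symm ((Finset.sum_eq_single y ?_ ?_).trans ?_)) h8
      · intro y' _ hne
        refine Finset.sum_eq_zero fun a' _ => ?_
        have h6 : ¬ (y' = y ∧ r a' (u a0 y)) := fun h => hne h.1
        simp [h6]
      · intro h
        exact absurd (Finset.mem_univ _) h
      · refine Finset.sum_congr rfl fun a' _ => ?_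
        by_cases h4 : GE a' y <;> by_cases h5 : r a' (u a0 y) <;> simp [h4, h5]
  -- surjectivity of `M4`
  have hsurj4 : Function.Surjective M4.mulVecLin := by
    have hr : M4.rank = Fintype.card {p : V × V // GE p.1 p.2} := by
      rw [← Matrix.rank_transpose]
      unfold Matrix.rank
      rw [LinearMap.finrank_range_of_inj hinj4]
      simp
    rw [← LinearMap.range_eq_top]
    apply Submodule.eq_top_of_finrank_eq
    have h1 : Module.finrank (KK V) (LinearMap.range M4.mulVecLin) = M4.rank := rfl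
    rw [h1, hr]
    simp
  have hc : M4.mulVecLin ∘ₗ M1.mulVecLin = M3.mulVecLin ∘ₗ M2.mulVecLin := by
    rw [← Matrix.mulVecLin_mul, ← Matrix.mulVecLin_mul, hmul]
  have := square_dim M1.mulVecLin M2.mulVecLin M3.mulVecLin M4.mulVecLin hinj1 hsurj4 hc
  simpa using this

end Vale.Agent.P038.H833
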